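import Vale.Agent.P224.PO.Main5H
import Vale.Agent.P224.SO.Stab5X
import Vale.Agent.P224.PO.Num5
import Vale.Agent.P224.H874.Z5F
import Vale.Agent.P224.SP.ZeroE
import Vale.Agent.P224.SO.OneS
import Vale.Agent.P224.PO.R5b.Main
import Vale.Agent.P224.PO.R5s.Law

/-!
The sharp volume bound in dimension five, with the case of equality.
-/

namespace Vale.Agent.P224.PO.Five

open MeasureTheory Set Filter Function Module Vale.Agent.P224 Vale.Agent.P224.UE
  Vale.Agent.P224.SP
open scoped Topology RealInnerProductSpace ENNReal ContDiff Manifold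

set_option linter.unusedSectionVars false

lemma gam_pos : 0 < gamD := by linarith [gamD_bd.1]

lemma kap_nonneg : 0 ≤ kapD := by
  unfold kapD
  norm_num

lemma num1 : 36 * gamD * (1233 / 10000000) ≤ 129 / 10000 * rhoD := by
  linarith [gamD_bd2.2, rhoD_bd2.1]

lemma num2 : (36 * (177 / 100) * gamD) ^ 2 * (1233 / 10000000) ≤ (205 / 100 * rhoD) ^ 2 := by
  have h1 : (36 * (177 / 100) * gamD) ^ 2 ≤ (36 * (177 / 100) * (6096 / 10000)) ^ 2 :=
    pow_le_pow_left₀ (by linarith [gam_pos]) (by linarith [gamD_bd2.2]) 2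
  have h2 : ((205 : ℝ) / 100 * (21041 / 100000)) ^ 2 ≤ (205 / 100 * rhoD) ^ 2 :=
    pow_le_pow_left₀ (by norm_num) (by linarith [rhoD_bd2.1]) 2
  refine le_trans ?_ h2
  refine le_trans (mul_le_mul_of_nonneg_right h1 (by norm_num)) ?_
  norm_num

section

variable {V W M : Type*} [NormedAddCommGroup V] [InnerProductSpace ℝ V] [FiniteDimensional ℝ V]
  [NormedAddCommGroup W] [InnerProductSpace ℝ W] [FiniteDimensional ℝ W]
  [TopologicalSpace M] [ChartedSpace V M]
  [MeasurableSpace V] [BorelSpace V] [MeasurableSpace M] [BorelSpace M]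
  [IsManifold 𝓘(ℝ, V) ∞ M] [CompactSpace M] [T2Space M] [ConnectedSpace M]
  [MeasurableSpace W] [BorelSpace W]

/-- the values at zero of the rows are null -/
lemma null_R00 {X : Type*} [MeasurableSpace X] {E : Type*} [NormedAddCommGroup E]
    [InnerProductSpace ℝ E] [MeasurableSpace E] [BorelSpace E] [SecondCountableTopology E]
    {μ : Measure X} [IsFiniteMeasure μ] {p n : X → E} (hG : TwoG μ 5 p n) (r l κ : ℝ) :
    Null μ p n 0 (R00 r l κ) := by
  have h := null_RoT hG r l κ [] (T := 0) ⟨le_rfl, zero_lt_one⟩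
  have e : RoT r l κ [] 0 = R00 r l κ := funext fun d => RoT_zero _ _ _ _ _
  rwa [e] at h

/-- **Dimension five**: at most the Clifford volume forces equality and linearity. -/
theorem core (hV : finrank ℝ V = 5) (hW : finrank ℝ W = finrank ℝ V + 2)
    {F : M → W} (hF : SphImm V F) (hmin : ∀ x n, IsUnitNormal V F x n → meanCurv V F x n = 0)
    (hng : ¬ ∃ a : W, a ≠ 0 ∧ ∀ x, ⟪F x, a⟫ = 0)
    (hle : (volM V F).real univ ≤ 48 / 25 * √(3 / 5) * sphereVol 5) :
    (volM V F).real univ = 48 / 25 * √(3 / 5) * sphereVol 5 ∧ Injective F ∧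
      ∃ (N : M → W) (b : OrthonormalBasis (Fin 7) ℝ W) (S : Finset (Fin 7)),
        ContMDiff 𝓘(ℝ, V) 𝓘(ℝ, W) ∞ N ∧ (∀ x, IsUnitNormal V F x (N x)) ∧ S.card = 4 ∧
        ∀ x, N x = ∑ i, (SO.zt S i * ⟪F x, b i⟫) • b i := by
  have hfin : IsFiniteMeasure (volM V F) := isFiniteMeasure_volM hF
  have hne : Nonempty M := inferInstance
  have hΘ : 9999 / 10000 * (48 / 25 * √(3 / 5)) * sphereVol 5 ≤ (volM V F).real univ := by
    have h := R5b.main hV hW hF hmin hng
    rw [least5_eq] at h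
    have h2 := (ENNReal.ofReal_le_iff_le_toReal (measure_ne_top _ _)).1 h
    have e : (volM V F).real univ = ((volM V F) univ).toReal := rfl
    rw [e]
    linarith
  refine core5_H (a := 7 / 10) (t1 := 129 / 10000) (k1 := 205 / 100) (t2 := 110 / 10000)
    (k2 := 186 / 100) (C := 48 / 25 * √(3 / 5)) (Θ1 := 9999 / 10000 * (48 / 25 * √(3 / 5)))
    (l := Z5.lT) (Ro := RoT (√6) (Real.log (8 / 3)) kapD Z5.sT)
    (R0 := R00 (√6) (Real.log (8 / 3)) kapD) (c0 := √5) (ρ := rhoD) (κ := kapD) (γ := gamD)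
    (lu := 1 / 15) (lv := 1 / 500) (c2 := 49 / 120) (ρ2 := 1719620175 / 8589934592)
    (κ2 := 130194055095 / 68719476736) (lus := 6592790993 / 137438953472)
    (b0 := 1) (b1 := 5111033817 / 8589934592) (b2 := -(246675413223 / 68719476736)) (b3 :=
    164620318869 / 34359738368) (b4 := -(51767863869 / 17179869184)) (b5 := -(84007683509 /
    68719476736)) (b6 := 51299321161 / 34359738368) (b7 := 26773133827 / 137438953472) (b8 := 0)
    (l2 := rlH 42880953483264 R5s.rows)
    (u0 := 1233 / 10000000) (gs := 287 / 4000000 - 12357 / 100000 * (1233 / 10000000) + 6763 / 25000 * (1233 / 10000000) ^ 2) (K := 177 / 100)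
    hV hW hF hmin hng a5_lt_two ?_ hΘ (by norm_num) (by norm_num) (by norm_num)
    SO.St.hst1U SO.St.hst2U Z5.reg_lT Z5.ok_lT Z5.w_lT
    (fun N hN T hT => null_RoT hN _ _ _ _ ⟨hT.1.le, hT.2⟩)
    (fun N hN => null_R00 hN _ _ _) Z5.hposR_lT (by positivity) (by linarith [rhoD_bd2.1])
    kap_nonneg gam_pos rhoD_lu rhoD_lv rhoD_l3
    (fun x N y w hx hN hy hw hxN hyw => Z5.h0_lT x N y w hx hN hy hw hxN hyw)
    (Z5.flux_lT.trans flux_eq) (by norm_num) (by norm_num) (by norm_num) (by norm_num)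
    (by norm_num) (by norm_num) R5s.rows_ok
    (fun e x N y w he hx hN hy hw hxN hyw hs => R5s.hpos_s e x N y w he hx hN hy hw hxN hyw hs)
    (by norm_num) (fun Θ u r h1 h2 hu hT hr1 hr2 => R5s.hlaw_g (by linarith [a5_ge])
      (h2.trans a5_le) (by norm_num) (by norm_num) hu hT hr1 hr2) (by norm_num)
    (fun N hN b S => SO.one_pointS hN (sp_of_hng hng) b S) num1 num2 (by norm_num)
    (by norm_num) hle
  linarith [a5_ge]

end

end Vale.Agent.P224.PO.Five
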