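import Vale.Agent.P224.PO.Num5
import Vale.Agent.P224.PO.Five.Main
import Vale.Agent.P224.RIG.Five
import Vale.Agent.P224.RIG.FiveIff
import Vale.Agent.P224.RIG.Iff

/-!
Dimension five: the sharp bound with its case of equality, and the common statement for the
dimension five and the even dimensions from four to sixteen.
-/

namespace Vale.Agent.P224.PO.Five

open MeasureTheory Set Filter Function Module Vale.Agent.P224 Vale.Agent.P224.RIG
open scoped Topology RealInnerProductSpace ENNReal ContDiff Manifold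

set_option linter.unusedSectionVars false

variable {V W M : Type*} [NormedAddCommGroup V] [InnerProductSpace ℝ V] [FiniteDimensional ℝ V]
  [NormedAddCommGroup W] [InnerProductSpace ℝ W] [FiniteDimensional ℝ W]
  [TopologicalSpace M] [ChartedSpace V M]
  [MeasurableSpace V] [BorelSpace V] [MeasurableSpace M] [BorelSpace M]
  [IsManifold 𝓘(ℝ, V) ∞ M] [CompactSpace M] [T2Space M] [ConnectedSpace M]

/-- **The volume is at most the least Clifford volume if and only if the immersion is an embedding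
onto a Clifford hypersurface**, in dimension five. -/
theorem five_le_iff (hV : finrank ℝ V = 5) (hW : finrank ℝ W = finrank ℝ V + 2)
    {F : M → W} (hF : SphImm V F) (hmin : ∀ x n, IsUnitNormal V F x n → meanCurv V F x n = 0)
    (hng : ¬ ∃ a : W, a ≠ 0 ∧ ∀ x, ⟪F x, a⟫ = 0) :
    volM V F univ ≤ ENNReal.ofReal (leastClifford (finrank ℝ V)) ↔
      Injective F ∧ ∃ U : Submodule ℝ W, finrank ℝ U = 3 ∧
        range F = {z | ‖U.starProjection z‖ ^ 2 = 2 / 5 ∧
          ‖z - U.starProjection z‖ ^ 2 = 3 / 5} := by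
  borelize W
  constructor
  · intro hle
    have hfin : volM V F univ ≠ ⊤ := ne_top_of_le_ne_top ENNReal.ofReal_ne_top hle
    have h0 : 0 ≤ leastClifford (finrank ℝ V) := leastClifford_nonneg _
    have hle' : (volM V F).real univ ≤ 48 / 25 * √(3 / 5) * sphereVol 5 := by
      rw [← least5_eq, ← hV, measureReal_def]
      exact ENNReal.toReal_le_of_le_ofReal h0 hle
    obtain ⟨-, hinj, N, b, S, -, hN, hS, hNe⟩ := core hV hW hF hmin hng hle'
    refine ⟨hinj, range_five hV hW hF b S hS fun x => ?_⟩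
    have h1 := hN x
    rw [hNe x] at h1
    exact h1
  · rintro ⟨hinj, U, hU, hr⟩
    exact (volM_five hV hW hF hinj hU fun x => by
      have : F x ∈ {z | ‖U.starProjection z‖ ^ 2 = 2 / 5 ∧
          ‖z - U.starProjection z‖ ^ 2 = 3 / 5} := hr ▸ mem_range_self x
      exact this).le

/-- The same with equality of the volumes. -/
theorem five_eq_iff (hV : finrank ℝ V = 5) (hW : finrank ℝ W = finrank ℝ V + 2)
    {F : M → W} (hF : SphImm V F) (hmin : ∀ x n, IsUnitNormal V F x n → meanCurv V F x n = 0)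
    (hng : ¬ ∃ a : W, a ≠ 0 ∧ ∀ x, ⟪F x, a⟫ = 0) :
    volM V F univ = ENNReal.ofReal (leastClifford (finrank ℝ V)) ↔
      Injective F ∧ ∃ U : Submodule ℝ W, finrank ℝ U = 3 ∧
        range F = {z | ‖U.starProjection z‖ ^ 2 = 2 / 5 ∧
          ‖z - U.starProjection z‖ ^ 2 = 3 / 5} := by
  borelize W
  constructor
  · intro h
    exact (five_le_iff hV hW hF hmin hng).1 h.le
  · rintro ⟨hinj, U, hU, hr⟩
    exact volM_five hV hW hF hinj hU fun x => by
      have : F x ∈ {z | ‖U.starProjection z‖ ^ 2 = 2 / 5 ∧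
          ‖z - U.starProjection z‖ ^ 2 = 3 / 5} := hr ▸ mem_range_self x
      exact this

/-- **The sharp bound in dimension five.** -/
theorem five_ge (hV : finrank ℝ V = 5) (hW : finrank ℝ W = finrank ℝ V + 2)
    {F : M → W} (hF : SphImm V F) (hmin : ∀ x n, IsUnitNormal V F x n → meanCurv V F x n = 0)
    (hng : ¬ ∃ a : W, a ≠ 0 ∧ ∀ x, ⟪F x, a⟫ = 0) :
    ENNReal.ofReal (leastClifford (finrank ℝ V)) ≤ volM V F univ := by
  rcases le_total (ENNReal.ofReal (leastClifford (finrank ℝ V))) (volM V F univ) with h | h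
  · exact h
  · exact ((five_eq_iff hV hW hF hmin hng).2 ((five_le_iff hV hW hF hmin hng).1 h)).ge

/-- **The sharp bound in dimension five with its case of equality.** -/
theorem five_iff (hV : finrank ℝ V = 5) (hW : finrank ℝ W = finrank ℝ V + 2)
    {F : M → W} (hF : SphImm V F) (hmin : ∀ x n, IsUnitNormal V F x n → meanCurv V F x n = 0)
    (hng : ¬ ∃ a : W, a ≠ 0 ∧ ∀ x, ⟪F x, a⟫ = 0) :
    ENNReal.ofReal (leastClifford 5) ≤ volM V F univ ∧
      (volM V F univ = ENNReal.ofReal (leastClifford 5) ↔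
        Injective F ∧ ∃ U : Submodule ℝ W, finrank ℝ U = 3 ∧
          range F = {z | ‖U.starProjection z‖ ^ 2 = 2 / 5 ∧
            ‖z - U.starProjection z‖ ^ 2 = 3 / 5}) := by
  have h1 := five_ge hV hW hF hmin hng
  have h2 := five_eq_iff hV hW hF hmin hng
  rw [hV] at h1 h2
  exact ⟨h1, h2⟩

/-- the balanced Clifford hypersurface of an even dimension -/
lemma half_even {m : ℕ} (h2 : Even m) (h0 : 0 < m) :
    ((m / 2 : ℕ) : ℝ) / (m : ℝ) = 1 / 2 ∧ ((m - m / 2 : ℕ) : ℝ) / (m : ℝ) = 1 / 2 := by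
  obtain ⟨k, hk⟩ := h2
  subst hk
  have hk0 : (k : ℝ) ≠ 0 := by
    have : 0 < k := by omega
    exact_mod_cast this.ne'
  have e1 : (k + k) / 2 = k := by omega
  have e2 : k + k - k = k := by omega
  rw [e1, e2]
  push_cast
  constructor <;> field_simp <;> norm_num

/-- **The sharp bound** in the dimension five and in the even dimensions from four to sixteen. -/
theorem uni_ge (hV : finrank ℝ V = 5 ∨
      (Even (finrank ℝ V) ∧ 4 ≤ finrank ℝ V ∧ finrank ℝ V ≤ 16))
    (hW : finrank ℝ W = finrank ℝ V + 2)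
    {F : M → W} (hF : SphImm V F) (hmin : ∀ x n, IsUnitNormal V F x n → meanCurv V F x n = 0)
    (hng : ¬ ∃ a : W, a ≠ 0 ∧ ∀ x, ⟪F x, a⟫ = 0) :
    ENNReal.ofReal (leastClifford (finrank ℝ V)) ≤ volM V F univ := by
  rcases hV with h5 | ⟨h2, h4, h16⟩
  · exact five_ge h5 hW hF hmin hng
  · rcases lt_or_clifford h2 h4 h16 hW hF hmin hng with h | h
    · exact h.le
    · exact h.1.ge

/-- **The case of equality** in the dimension five and in the even dimensions from four to
sixteen: the immersion is an embedding onto the minimal product of two round spheres of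
dimensions `m / 2` and `m - m / 2`. -/
theorem uni_eq_iff (hV : finrank ℝ V = 5 ∨
      (Even (finrank ℝ V) ∧ 4 ≤ finrank ℝ V ∧ finrank ℝ V ≤ 16))
    (hW : finrank ℝ W = finrank ℝ V + 2)
    {F : M → W} (hF : SphImm V F) (hmin : ∀ x n, IsUnitNormal V F x n → meanCurv V F x n = 0)
    (hng : ¬ ∃ a : W, a ≠ 0 ∧ ∀ x, ⟪F x, a⟫ = 0) :
    volM V F univ = ENNReal.ofReal (leastClifford (finrank ℝ V)) ↔
      Injective F ∧ ∃ U : Submodule ℝ W, finrank ℝ U = finrank ℝ V / 2 + 1 ∧
        range F = {z | ‖U.starProjection z‖ ^ 2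
              = ((finrank ℝ V / 2 : ℕ) : ℝ) / (finrank ℝ V : ℝ) ∧
            ‖z - U.starProjection z‖ ^ 2
              = ((finrank ℝ V - finrank ℝ V / 2 : ℕ) : ℝ) / (finrank ℝ V : ℝ)} := by
  rcases hV with h5 | ⟨h2, h4, h16⟩
  · have h := five_eq_iff h5 hW hF hmin hng
    have e1 : ((finrank ℝ V / 2 : ℕ) : ℝ) / (finrank ℝ V : ℝ) = 2 / 5 := by
      rw [h5]; norm_num
    have e2 : ((finrank ℝ V - finrank ℝ V / 2 : ℕ) : ℝ) / (finrank ℝ V : ℝ) = 3 / 5 := by
      rw [h5]; norm_num
    have e3 : finrank ℝ V / 2 + 1 = 3 := by rw [h5]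
    rw [e1, e2, e3]
    exact h
  · have h := vol_eq_iff h2 h4 h16 hW hF hmin hng
    obtain ⟨e1, e2⟩ := half_even h2 (by omega)
    rw [e1, e2]
    exact h

/-- The volume is at most the least Clifford volume only in the case of equality. -/
theorem uni_le_iff (hV : finrank ℝ V = 5 ∨
      (Even (finrank ℝ V) ∧ 4 ≤ finrank ℝ V ∧ finrank ℝ V ≤ 16))
    (hW : finrank ℝ W = finrank ℝ V + 2)
    {F : M → W} (hF : SphImm V F) (hmin : ∀ x n, IsUnitNormal V F x n → meanCurv V F x n = 0)
    (hng : ¬ ∃ a : W, a ≠ 0 ∧ ∀ x, ⟪F x, a⟫ = 0) :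
    volM V F univ ≤ ENNReal.ofReal (leastClifford (finrank ℝ V)) ↔
      Injective F ∧ ∃ U : Submodule ℝ W, finrank ℝ U = finrank ℝ V / 2 + 1 ∧
        range F = {z | ‖U.starProjection z‖ ^ 2
              = ((finrank ℝ V / 2 : ℕ) : ℝ) / (finrank ℝ V : ℝ) ∧
            ‖z - U.starProjection z‖ ^ 2
              = ((finrank ℝ V - finrank ℝ V / 2 : ℕ) : ℝ) / (finrank ℝ V : ℝ)} := by
  rw [← uni_eq_iff hV hW hF hmin hng]
  exact ⟨fun h => le_antisymm h (uni_ge hV hW hF hmin hng), fun h => h.le⟩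

end Vale.Agent.P224.PO.Five
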