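import Vale.Agent.P224.PO.Five.Main
import Vale.Agent.P224.RIG.Five
import Vale.Agent.P224.RIG.FiveIff

/-!
The sharp bound in dimension five with its case of equality.
-/

open MeasureTheory Set Filter Function Module Vale.Agent.P224
open scoped Topology RealInnerProductSpace ENNReal ContDiff Manifold

namespace Vale.Agent.P224.PO.Five

theorem five_iffB {V W M : Type*}
    [NormedAddCommGroup V] [InnerProductSpace ℝ V] [FiniteDimensional ℝ V]
    [MeasurableSpace V] [BorelSpace V]
    [NormedAddCommGroup W] [InnerProductSpace ℝ W] [FiniteDimensional ℝ W]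
    [TopologicalSpace M] [T2Space M] [CompactSpace M] [ConnectedSpace M]
    [ChartedSpace V M] [IsManifold 𝓘(ℝ, V) ∞ M] [MeasurableSpace M] [BorelSpace M]
    (hV : finrank ℝ V = 5) (hW : finrank ℝ W = finrank ℝ V + 2)
    {F : M → W} (hF : SphImm V F)
    (hmin : ∀ x n, IsUnitNormal V F x n → meanCurv V F x n = 0)
    (hng : ¬ ∃ a : W, a ≠ 0 ∧ ∀ x, ⟪F x, a⟫ = 0) :
    ENNReal.ofReal (leastClifford 5) ≤ volM V F Set.univ ∧
      (volM V F Set.univ = ENNReal.ofReal (leastClifford 5) ↔
        Function.Injective F ∧ ∃ U : Submodule ℝ W, finrank ℝ U = 3 ∧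
          Set.range F =
            {z | ‖U.starProjection z‖ ^ 2 = 2 / 5 ∧ ‖z - U.starProjection z‖ ^ 2 = 3 / 5}) := by
  borelize W
  have hfin : IsFiniteMeasure (volM V F) := isFiniteMeasure_volM hF
  have hne : Nonempty M := inferInstance
  have hc0 : 0 ≤ leastClifford 5 := leastClifford_nonneg _
  have hcore := core hV hW hF hmin hng
  rw [← least5_eq] at hcore
  have ereal : (volM V F) univ = ENNReal.ofReal ((volM V F).real univ) :=
    (ofReal_measureReal (measure_ne_top _ _)).symm
  constructor
  · rw [ereal]
    apply ENNReal.ofReal_le_ofReal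
    by_contra hcon
    rw [not_le] at hcon
    have := (hcore hcon.le).1
    linarith
  · constructor
    · intro h
      have hle : (volM V F).real univ ≤ leastClifford 5 := by
        rw [ereal] at h
        have h2 := (ENNReal.ofReal_eq_ofReal_iff measureReal_nonneg hc0).1 h
        exact h2.le
      obtain ⟨-, hinj, N, b, S, -, hN, hS, hNx⟩ := hcore hle
      refine ⟨hinj, RIG.range_five hV hW hF b S hS fun x => ?_⟩
      have := hN x
      rw [hNx x] at this
      exact this
    · rintro ⟨hinj, U, hU, hr⟩
      have h5 := RIG.volM_five hV hW hF hinj hU (fun x => by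
        have : F x ∈ range F := mem_range_self x
        rw [hr] at this
        exact this)
      rw [hV] at h5
      exact h5

end Vale.Agent.P224.PO.Five
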